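import Vale.Agent.P065.UB.H433.FrmSys
import Vale.Agent.P065.UB.Mach.Defs

/-!
# P065, upper bound, MACH2 (helper433): `Poles` (989) to 240's `Sys` with the functions of `MC.Mach`
-/

set_option autoImplicit false

namespace Vale.Agent.P065.UB.H433

open Finset Vale.Agent.P065.UB Vale.Agent.P065.UB.RankAux Vale.Agent.P065.H183
open Vale.Agent.P065.UB.H415 Vale.Agent.P065.UB.H616 Vale.Agent.P065.H240 Vale.Agent.P065.H989

section
variable {K K' lam : ℝ} {Q : Finset Pt} {W : Finset ℕ} {I : ℕ → Set ℝ} {R : ℕ → Finset Pt}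
  {c : Pt} {w0 : ℕ} {m0 : ℝ} {Pr : Finset (Pt × Pt)} {Wd : Pt × Pt → ℕ}
  {o1 o2 o3 : Pt} {F : Finset (Pt × Pt)}

theorem mcZ_eq {a : Pt} (h : 1 / 2 ≤ |fal o1 o2 o3 a|) :
    fZ m0 c o1 o2 o3 a = MC.fZ m0 c o1 o2 a := by
  funext q
  rw [fZ_eq h]
  rfl

open Classical in
/-- **MACH2a**: `Poles` is a system for ONE RESOLUTION, with the functions of `MC.Mach` -/
theorem sysM (h : Poles K lam Q W I R c w0 m0 Pr Wd o1 o2 o3 F)
    (hV : JView K' lam Q W I R) (hKK : K' ≤ K) :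
    ∃ (p u q v : ℕ → ℝ) (r w : Pt → ℕ → ℝ),
      Sys (K ^ 2) lam ((#Q : ℝ) / lam ^ 2) (F.image Prod.fst) (F.image Prod.snd)
        (fun a => {B ∈ F.image Prod.snd | (a, B) ∈ F})
        (MC.fX m0 c o1) (MC.fY m0 c o1 o2 o3) (MC.fZ m0 c o1 o2)
        ((F.image Prod.snd).image fun B => Wd (o1, B)) p u (fun B => Wd (o1, B))
        ((F.image Prod.snd).image fun B => Wd (o2, B)) q v (fun B => Wd (o2, B))
        (fun a => ({B ∈ F.image Prod.snd | (a, B) ∈ F}).image fun B => Wd (a, B)) r w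
        (fun a B => Wd (a, B)) := by
  obtain ⟨p, u, q, v, r, w, -, S⟩ := frame_sys h hV hKK
  refine ⟨p, u, q, v, r, w, ?_⟩
  exact
  { ne := S.ne
    tri := fun a ha => by
      have h1 := S.tri a ha
      obtain ⟨e, he, rfl⟩ := mem_image.1 ha
      rw [mcZ_eq (poles_ne1 h he)] at h1
      exact h1
    sub := S.sub
    memI := S.memI
    memJ := S.memJ
    pij := S.pij
    v1 := S.v1
    mass := S.mass }

end

end Vale.Agent.P065.UB.H433
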