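import Mathlib

/-!
# P065, upper bound: hulls of the values of a labelled function (helper433)

A function `f` on a finite set `S` whose labels have values in pairwise disjoint order-connected
sets: centres `p` and half-widths `u` of the hulls of the values, with strict separation.
-/

set_option autoImplicit false

namespace Vale.Agent.P065.UB.H433

open Finset

/-- centre and half-width of the values of every label -/
structure HullF {γ ι : Type} (S : Finset γ) (f : γ → ℝ) (lab : γ → ι) (p u : ι → ℝ) : Prop where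
  mem : ∀ B ∈ S, |f B - p (lab B)| ≤ u (lab B)
  ends : ∀ B ∈ S, ∃ B1 ∈ S, ∃ B2 ∈ S, lab B1 = lab B ∧ lab B2 = lab B ∧
    f B1 = p (lab B) - u (lab B) ∧ f B2 = p (lab B) + u (lab B)

namespace HullF

variable {γ ι : Type} {S : Finset γ} {f : γ → ℝ} {lab : γ → ι} {p u : ι → ℝ}

theorem nonneg (H : HullF S f lab p u) {B : γ} (hB : B ∈ S) : 0 ≤ u (lab B) :=
  (abs_nonneg _).trans (H.mem B hB)

/-- every label has a hull -/
theorem exists_hull (S : Finset γ) (f : γ → ℝ) (lab : γ → ι) :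
    ∃ p u : ι → ℝ, HullF S f lab p u := by
  classical
  have key : ∀ s : ι, ∃ pu : ℝ × ℝ, (∃ B ∈ S, lab B = s) →
      (∀ B ∈ S, lab B = s → |f B - pu.1| ≤ pu.2) ∧
      ∃ B1 ∈ S, ∃ B2 ∈ S, lab B1 = s ∧ lab B2 = s ∧ f B1 = pu.1 - pu.2 ∧ f B2 = pu.1 + pu.2 := by
    intro s
    by_cases hs : ∃ B ∈ S, lab B = s
    · obtain ⟨B0, hB0, hB0s⟩ := hs
      have hne : (S.filter fun B => lab B = s).Nonempty := ⟨B0, mem_filter.2 ⟨hB0, hB0s⟩⟩
      obtain ⟨B1, hB1, hmin⟩ := exists_min_image _ f hne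
      obtain ⟨B2, hB2, hmax⟩ := exists_max_image _ f hne
      have h1 := mem_filter.1 hB1
      have h2 := mem_filter.1 hB2
      refine ⟨((f B1 + f B2) / 2, (f B2 - f B1) / 2), fun _ => ⟨?_, ?_⟩⟩
      · intro B hB hBs
        have g1 := hmin B (mem_filter.2 ⟨hB, hBs⟩)
        have g2 := hmax B (mem_filter.2 ⟨hB, hBs⟩)
        rw [abs_le]
        constructor <;> linarith
      · refine ⟨B1, h1.1, B2, h2.1, h1.2, h2.2, ?_, ?_⟩ <;> ring
    · exact ⟨(0, 0), fun h => absurd h hs⟩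
  choose g hg using key
  refine ⟨fun s => (g s).1, fun s => (g s).2, ⟨?_, ?_⟩⟩
  · intro B hB
    exact (hg (lab B) ⟨B, hB, rfl⟩).1 B hB rfl
  · intro B hB
    exact (hg (lab B) ⟨B, hB, rfl⟩).2

/-- **strict separation** -/
theorem sep_lt (H : HullF S f lab p u) {Zs : ι → Set ℝ}
    (hconn : ∀ B ∈ S, (Zs (lab B)).OrdConnected)
    (hdisj : ∀ B ∈ S, ∀ B' ∈ S, lab B ≠ lab B' → Disjoint (Zs (lab B)) (Zs (lab B')))
    (hmem : ∀ B ∈ S, f B ∈ Zs (lab B)) {B B' : γ} (hB : B ∈ S) (hB' : B' ∈ S)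
    (hne : lab B ≠ lab B') : u (lab B) + u (lab B') < |p (lab B) - p (lab B')| := by
  obtain ⟨B1, h1, B2, h2, l1, l2, e1, e2⟩ := H.ends B hB
  obtain ⟨B1', h1', B2', h2', l1', l2', e1', e2'⟩ := H.ends B' hB'
  have m1 := hmem B1 h1
  have m2 := hmem B2 h2
  have m1' := hmem B1' h1'
  have m2' := hmem B2' h2'
  rw [l1, e1] at m1
  rw [l2, e2] at m2
  rw [l1', e1'] at m1'
  rw [l2', e2'] at m2'
  have hd := Set.disjoint_left.1 (hdisj B hB B' hB' hne)
  have c1 := hconn B hB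
  have c2 := hconn B' hB'
  have u0 := H.nonneg hB
  have u0' := H.nonneg hB'
  -- the two closed intervals are disjoint
  rcases le_total (p (lab B)) (p (lab B')) with hp | hp
  · rw [abs_sub_comm, abs_of_nonneg (sub_nonneg.2 hp)]
    by_contra hcon
    push Not at hcon
    -- common point: the right end of the first or the left end of the second
    rcases le_total (p (lab B) + u (lab B)) (p (lab B') + u (lab B')) with hr | hr
    · exact hd m2 (c2.out m1' m2' ⟨by linarith, hr⟩)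
    · exact hd (c1.out m1 m2 ⟨by linarith, hr⟩) m2'
  · rw [abs_of_nonneg (sub_nonneg.2 hp)]
    by_contra hcon
    push Not at hcon
    rcases le_total (p (lab B') + u (lab B')) (p (lab B) + u (lab B)) with hr | hr
    · exact hd (c1.out m1 m2 ⟨by linarith, hr⟩) m2'
    · exact hd m2 (c2.out m1' m2' ⟨by linarith, hr⟩)

/-- scaling -/
theorem scale (H : HullF S f lab p u) (k : ℝ) :
    HullF S (fun B => k * f B) lab (fun s => k * p s) (fun s => |k| * u s) := by
  refine ⟨?_, ?_⟩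
  · intro B hB
    rw [← mul_sub, abs_mul]
    exact mul_le_mul_of_nonneg_left (H.mem B hB) (abs_nonneg _)
  · intro B hB
    obtain ⟨B1, h1, B2, h2, l1, l2, e1, e2⟩ := H.ends B hB
    rcases le_total 0 k with hk | hk
    · refine ⟨B1, h1, B2, h2, l1, l2, ?_, ?_⟩
      · rw [e1, abs_of_nonneg hk]; ring
      · rw [e2, abs_of_nonneg hk]; ring
    · refine ⟨B2, h2, B1, h1, l2, l1, ?_, ?_⟩
      · rw [e2, abs_of_nonpos hk]; ring
      · rw [e1, abs_of_nonpos hk]; ring

end HullF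

/-- a finite family of labels with strictly separated hulls can be inflated a little -/
theorem exists_inflate {ι : Type} (J : Finset ι) (p u : ι → ℝ)
    (h : ∀ a ∈ J, ∀ b ∈ J, a ≠ b → u a + u b < |p a - p b|) {η₀ : ℝ} (hη₀ : 0 < η₀) :
    ∃ η : ℝ, 0 < η ∧ η ≤ η₀ ∧ ∀ a ∈ J, ∀ b ∈ J, a ≠ b → (u a + η) + (u b + η) ≤ |p a - p b| := by
  classical
  set T : Finset (ι × ι) := (J ×ˢ J).filter fun e => e.1 ≠ e.2 with hT
  by_cases hne : T.Nonempty
  · obtain ⟨e, he, hmin⟩ := exists_min_image T (fun e => |p e.1 - p e.2| - (u e.1 + u e.2)) hne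
    have he' := mem_filter.1 he
    have hpos : 0 < |p e.1 - p e.2| - (u e.1 + u e.2) := by
      have := h e.1 (mem_product.1 he'.1).1 e.2 (mem_product.1 he'.1).2 he'.2
      linarith
    refine ⟨min η₀ ((|p e.1 - p e.2| - (u e.1 + u e.2)) / 2), lt_min hη₀ (by linarith),
      min_le_left _ _, ?_⟩
    intro a ha b hb hab
    have := hmin (a, b) (mem_filter.2 ⟨mem_product.2 ⟨ha, hb⟩, hab⟩)
    simp only at this
    have h2 := min_le_right η₀ ((|p e.1 - p e.2| - (u e.1 + u e.2)) / 2)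
    linarith
  · refine ⟨η₀, hη₀, le_rfl, ?_⟩
    intro a ha b hb hab
    exact absurd ⟨(a, b), mem_filter.2 ⟨mem_product.2 ⟨ha, hb⟩, hab⟩⟩ hne

end Vale.Agent.P065.UB.H433
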