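import Vale.Agent.P065.UB.H415.Frame
import Vale.Agent.P065.H240.Cor
import Vale.Agent.P065.H989.PolesDefs
import Vale.Agent.P065.UB.H433.Hull

/-!
# P065, upper bound, MACH2, part 1 (helper433): from `Poles` (989) to `Sys` (240)

Coordinates of a point `q`: `fX = cf o1`, `fY = rho3 * cf o2`, and for the class `a`
`fZ a = fX + al a * fY`, which is `(u2 - u1) / (u2 - u_a) * cf a` EXACTLY.
-/

set_option autoImplicit false

namespace Vale.Agent.P065.UB.H433

open Finset Vale.Agent.P065.UB Vale.Agent.P065.UB.RankAux Vale.Agent.P065.H183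
open Vale.Agent.P065.UB.H415 Vale.Agent.P065.UB.H616 Vale.Agent.P065.H240 Vale.Agent.P065.H989

/-! ### coordinates -/

/-- first coordinate -/
noncomputable def fX (m0 : ℝ) (c o1 : Pt) (q : Pt) : ℝ := cf m0 c o1 q

/-- second coordinate -/
noncomputable def fY (m0 : ℝ) (c o1 o2 o3 : Pt) (q : Pt) : ℝ :=
  rho o1.1 o2.1 o3.1 * cf m0 c o2 q

/-- multiplier of the class `a` -/
noncomputable def fal (o1 o2 o3 : Pt) (a : Pt) : ℝ :=
  rho o1.1 o2.1 a.1 / rho o1.1 o2.1 o3.1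

/-- coordinate of the class `a` -/
noncomputable def fZ (m0 : ℝ) (c o1 o2 o3 : Pt) (a q : Pt) : ℝ :=
  fX m0 c o1 q + fal o1 o2 o3 a * fY m0 c o1 o2 o3 q

/-- the factor between `fZ a` and `cf a` -/
noncomputable def fs (o1 o2 a : Pt) : ℝ := (o2.1 - o1.1) / (o2.1 - a.1)

theorem cross_id {u1 u2 u q : ℝ} (h : u2 - u ≠ 0) :
    (u2 - u1) / (u2 - u) * (q - u) = (q - u1) + rho u1 u2 u * (q - u2) := by
  unfold rho
  field_simp
  ring

theorem rho_ne {u1 u2 u : ℝ} (h : rho u1 u2 u ≠ 0) : u2 - u ≠ 0 ∧ u - u1 ≠ 0 := by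
  unfold rho at h
  constructor
  · intro h1
    rw [h1, div_zero] at h
    exact h rfl
  · intro h1
    rw [h1, zero_div] at h
    exact h rfl

theorem ratio_ne {x y : ℝ} (h : 1 / 2 ≤ |x / y|) : x ≠ 0 ∧ y ≠ 0 := by
  constructor
  · intro h1
    rw [h1, zero_div, abs_zero] at h
    norm_num at h
  · intro h1
    rw [h1, div_zero, abs_zero] at h
    norm_num at h

/-- **exactness**: the class coordinate is a multiple of the class function -/
theorem fZ_eq {m0 : ℝ} {c o1 o2 o3 a q : Pt} (h : 1 / 2 ≤ |fal o1 o2 o3 a|) :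
    fZ m0 c o1 o2 o3 a q = fs o1 o2 a * cf m0 c a q := by
  obtain ⟨h1, h3⟩ := ratio_ne h
  have h2 := (rho_ne h1).1
  unfold fZ fX fY fal fs
  have e1 : rho o1.1 o2.1 a.1 / rho o1.1 o2.1 o3.1 * (rho o1.1 o2.1 o3.1 * cf m0 c o2 q)
      = rho o1.1 o2.1 a.1 * cf m0 c o2 q := by
    rw [← mul_assoc, div_mul_cancel₀ _ h3]
  rw [e1, cf_div, cf_div, cf_div, ← mul_div_assoc, ← mul_div_assoc, ← add_div,
    cross_id h2]

theorem fs_ne {o1 o2 o3 a : Pt} (h : 1 / 2 ≤ |fal o1 o2 o3 a|) (h12 : o1.1 ≠ o2.1) :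
    fs o1 o2 a ≠ 0 :=
  div_ne_zero (sub_ne_zero.2 (Ne.symm h12)) (rho_ne (ratio_ne h).1).1

/-! ### quasi-linear triples -/

section quasi
variable {K x x' y y' al : ℝ}

theorem quasi_x (hK : 2 ≤ K) (h2 : |al| ≤ 2) :
    |x - x'| ≤ K * (|y - y'| + |(x + al * y) - (x' + al * y')|) := by
  have e : x - x' = ((x + al * y) - (x' + al * y')) - al * (y - y') := by ring
  have h3 : |x - x'| ≤ |(x + al * y) - (x' + al * y')| + |al| * |y - y'| := by
    rw [← abs_mul]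
    calc |x - x'| = |((x + al * y) - (x' + al * y')) - al * (y - y')| := by rw [← e]
      _ ≤ _ := abs_sub _ _
  have h4 : |al| * |y - y'| ≤ K * |y - y'| :=
    mul_le_mul_of_nonneg_right (h2.trans hK) (abs_nonneg _)
  have h5 : |(x + al * y) - (x' + al * y')| ≤ K * |(x + al * y) - (x' + al * y')| :=
    le_mul_of_one_le_left (abs_nonneg _) (by linarith)
  linarith

theorem quasi_z (hK : 2 ≤ K) (h2 : |al| ≤ 2) :
    |(x + al * y) - (x' + al * y')| ≤ K * (|x - x'| + |y - y'|) := by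
  have e : (x + al * y) - (x' + al * y') = (x - x') + al * (y - y') := by ring
  have h3 : |(x + al * y) - (x' + al * y')| ≤ |x - x'| + |al| * |y - y'| := by
    rw [← abs_mul, e]
    exact abs_add_le _ _
  have h4 : |al| * |y - y'| ≤ K * |y - y'| :=
    mul_le_mul_of_nonneg_right (h2.trans hK) (abs_nonneg _)
  have h5 : |x - x'| ≤ K * |x - x'| :=
    le_mul_of_one_le_left (abs_nonneg _) (by linarith)
  linarith

theorem quasi_y (hK : 2 ≤ K) (h1 : 1 / 2 ≤ |al|) :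
    |y - y'| ≤ K * (|x - x'| + |(x + al * y) - (x' + al * y')|) := by
  have e : al * (y - y') = ((x + al * y) - (x' + al * y')) - (x - x') := by ring
  have h3 : |al| * |y - y'| ≤ |(x + al * y) - (x' + al * y')| + |x - x'| := by
    rw [← abs_mul, e]
    exact abs_sub _ _
  have h4 : 1 / 2 * |y - y'| ≤ |al| * |y - y'| :=
    mul_le_mul_of_nonneg_right h1 (abs_nonneg _)
  have h5 : 0 ≤ |x - x'| := abs_nonneg _
  have h6 : 0 ≤ |(x + al * y) - (x' + al * y')| := abs_nonneg _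
  nlinarith

end quasi

/-! ### hulls of a scaled function -/

/-- hulls of `k f`, strictly separated -/
theorem hull_scaled {γ ι : Type} (S : Finset γ) (f : γ → ℝ) (lab : γ → ι) (Zs : ι → Set ℝ)
    (k : ℝ) (hk : k ≠ 0) (hconn : ∀ B ∈ S, (Zs (lab B)).OrdConnected)
    (hdisj : ∀ B ∈ S, ∀ B' ∈ S, lab B ≠ lab B' → Disjoint (Zs (lab B)) (Zs (lab B')))
    (hmem : ∀ B ∈ S, f B ∈ Zs (lab B)) :
    ∃ p u : ι → ℝ, HullF S (fun B => k * f B) lab p u ∧
      ∀ B ∈ S, ∀ B' ∈ S, lab B ≠ lab B' →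
        u (lab B) + u (lab B') < |p (lab B) - p (lab B')| := by
  obtain ⟨p, u, H⟩ := HullF.exists_hull S f lab
  refine ⟨_, _, H.scale k, ?_⟩
  intro B hB B' hB' hne
  have h := H.sep_lt hconn hdisj hmem hB hB' hne
  have h0 : 0 < |k| := abs_pos.2 hk
  rw [← mul_add, ← mul_sub, abs_mul]
  exact mul_lt_mul_of_pos_left h h0

/-- extensionality of hulls -/
theorem HullF.congr {γ ι : Type} {S : Finset γ} {f g : γ → ℝ} {lab : γ → ι} {p u : ι → ℝ}
    (H : HullF S f lab p u) (h : ∀ B ∈ S, f B = g B) : HullF S g lab p u := by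
  refine ⟨fun B hB => ?_, fun B hB => ?_⟩
  · rw [← h B hB]
    exact H.mem B hB
  · obtain ⟨B1, h1, B2, h2, l1, l2, e1, e2⟩ := H.ends B hB
    exact ⟨B1, h1, B2, h2, l1, l2, (h B1 h1) ▸ e1, (h B2 h2) ▸ e2⟩

/-! ### the system -/

open Classical in
/-- the widths are positive halves of differences of values -/
structure WFacts (m0 : ℝ) (c o1 o2 o3 : Pt) (F : Finset (Pt × Pt)) (Wd : Pt × Pt → ℕ)
    (p u q v : ℕ → ℝ) (r w : Pt → ℕ → ℝ) : Prop where
  hx : HullF (F.image Prod.snd) (fX m0 c o1) (fun B => Wd (o1, B)) p u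
  hy : ∃ v' : ℕ → ℝ, (∀ s, v' s < v s) ∧
    HullF (F.image Prod.snd) (fY m0 c o1 o2 o3) (fun B => Wd (o2, B)) q v'
  hz : ∀ a ∈ F.image Prod.fst, HullF ({B ∈ F.image Prod.snd | (a, B) ∈ F})
    (fZ m0 c o1 o2 o3 a) (fun B => Wd (a, B)) (r a) (w a)

section
variable {K K' lam : ℝ} {Q : Finset Pt} {W : Finset ℕ} {I : ℕ → Set ℝ} {R : ℕ → Finset Pt}
  {c : Pt} {w0 : ℕ} {m0 : ℝ} {Pr : Finset (Pt × Pt)} {Wd : Pt × Pt → ℕ}
  {o1 o2 o3 : Pt} {F : Finset (Pt × Pt)}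

theorem poles_ne1 (h : Poles K lam Q W I R c w0 m0 Pr Wd o1 o2 o3 F) {e : Pt × Pt}
    (he : e ∈ F) : 1 / 2 ≤ |fal o1 o2 o3 e.1| := h.cr1 e he

theorem poles_x12 (h : Poles K lam Q W I R c w0 m0 Pr Wd o1 o2 o3 F)
    (hV : JView K' lam Q W I R) {e : Pt × Pt} (he : e ∈ F) : o1.1 ≠ o2.1 := fun h1 =>
  h.n12 (hV.xinj o1 (h.cher.mem1 _ (h.e1 e he)) o2 (h.cher.mem1 _ (h.e2 e he)) h1)

theorem poles_F (h : Poles K lam Q W I R c w0 m0 Pr Wd o1 o2 o3 F) : F.Nonempty := by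
  rw [nonempty_iff_ne_empty]
  intro h0
  have h1 := h.card
  rw [h0, card_empty, Nat.cast_zero, mul_zero] at h1
  have h2 : 0 < #Q := card_pos.2 ⟨c, h.cher.cQ⟩
  have h3 : (0 : ℝ) < #Q := by exact_mod_cast h2
  have h4 : (0 : ℝ) < (#Q : ℝ) ^ 2 := by positivity
  linarith

open Classical in
/-- few windows at a point -/
theorem few_windows (hV : JView K' lam Q W I R) (hKK : K' ≤ K) {x : Pt} (hx : x ∈ Q)
    {S : Finset ℕ} (hS : ∀ s ∈ S, s ∈ W ∧ x ∈ R s) : (#S : ℝ) ≤ K ^ 2 * lam := by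
  have h1 : S ⊆ {w ∈ W | x ∈ R w} := fun s hs => mem_filter.2 (hS s hs)
  have h2 : (#S : ℝ) ≤ #{w ∈ W | x ∈ R w} := by exact_mod_cast card_le_card h1
  have h3 := hV.touch x hx
  have h4 := hV.one
  have h5 := hV.two
  calc (#S : ℝ) ≤ K' * lam := h2.trans h3
    _ ≤ K ^ 2 * lam := by
      apply mul_le_mul_of_nonneg_right _ (by linarith)
      nlinarith

/-- number of points with two given labels -/
theorem pair_count {S : Finset Pt} {f g : Pt → ℕ} {K K2 N lam : ℝ} (hl : 0 < lam) (hN : 0 ≤ N)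
    (hK : 0 ≤ K) (hK2 : K ≤ K2)
    (h : ∀ B ∈ S, ∃ T : Finset Pt, (∀ z ∈ S, f z = f B → g z = g B → z ∈ T) ∧
      lam ^ 2 * (#T : ℝ) ≤ K * N) (s t : ℕ) (inst : DecidablePred fun B => f B = s ∧ g B = t) :
    (#(@filter _ (fun B => f B = s ∧ g B = t) inst S) : ℝ) ≤ K2 * (N / lam ^ 2) := by
  rcases (@filter _ (fun B => f B = s ∧ g B = t) inst S).eq_empty_or_nonempty with h0 | ⟨B, hB⟩
  · rw [h0, card_empty, Nat.cast_zero]
    exact mul_nonneg (hK.trans hK2) (by positivity)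
  · obtain ⟨hB1, rfl, rfl⟩ := mem_filter.1 hB
    obtain ⟨T, hT, hT2⟩ := h B hB1
    have h1 : @filter _ (fun z => f z = f B ∧ g z = g B) inst S ⊆ T := by
      intro z hz
      obtain ⟨g1, g2, g3⟩ := mem_filter.1 hz
      exact hT z g1 g2 g3
    have h2 : (#(@filter _ (fun z => f z = f B ∧ g z = g B) inst S) : ℝ) ≤ #T := by
      exact_mod_cast card_le_card h1
    rw [← mul_div_assoc, le_div_iff₀ (by positivity), mul_comm]
    calc lam ^ 2 * (#(@filter _ (fun z => f z = f B ∧ g z = g B) inst S) : ℝ)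
        ≤ lam ^ 2 * #T := mul_le_mul_of_nonneg_left h2 (by positivity)
      _ ≤ K * N := hT2
      _ ≤ K2 * N := mul_le_mul_of_nonneg_right hK2 hN

open Classical in
/-- **MACH2, part 1**: `Poles` is a system for ONE RESOLUTION -/
theorem frame_sys (h : Poles K lam Q W I R c w0 m0 Pr Wd o1 o2 o3 F)
    (hV : JView K' lam Q W I R) (hKK : K' ≤ K) :
    ∃ (p u q v : ℕ → ℝ) (r w : Pt → ℕ → ℝ),
      WFacts m0 c o1 o2 o3 F Wd p u q v r w ∧
      Sys (K ^ 2) lam ((#Q : ℝ) / lam ^ 2) (F.image Prod.fst) (F.image Prod.snd)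
        (fun a => {B ∈ F.image Prod.snd | (a, B) ∈ F})
        (fX m0 c o1) (fY m0 c o1 o2 o3) (fZ m0 c o1 o2 o3)
        ((F.image Prod.snd).image fun B => Wd (o1, B)) p u (fun B => Wd (o1, B))
        ((F.image Prod.snd).image fun B => Wd (o2, B)) q v (fun B => Wd (o2, B))
        (fun a => ({B ∈ F.image Prod.snd | (a, B) ∈ F}).image fun B => Wd (a, B)) r w
        (fun a B => Wd (a, B)) := by
  have hK := h.two
  have hlam := hV.one
  have hC := h.cher
  have hN0 : 0 < #Q := card_pos.2 ⟨c, hC.cQ⟩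
  have hN : (0 : ℝ) < #Q := by exact_mod_cast hN0
  have hl0 : 0 < lam := by linarith
  obtain ⟨e₀, he₀⟩ := poles_F h
  have hx12 := poles_x12 h hV he₀
  have hr3 : rho o1.1 o2.1 o3.1 ≠ 0 := (ratio_ne (poles_ne1 h he₀)).2
  have hex : ∀ B ∈ F.image Prod.snd, ∃ e ∈ F, e.2 = B := fun B hB => by
    obtain ⟨e, he, rfl⟩ := mem_image.1 hB
    exact ⟨e, he, rfl⟩
  have hexa : ∀ a ∈ F.image Prod.fst, ∃ e ∈ F, e.1 = a := fun a ha => by
    obtain ⟨e, he, rfl⟩ := mem_image.1 ha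
    exact ⟨e, he, rfl⟩
  have hp1 : ∀ B ∈ F.image Prod.snd, (o1, B) ∈ Pr := fun B hB => by
    obtain ⟨e, he, rfl⟩ := hex B hB
    exact h.e1 e he
  have hp2 : ∀ B ∈ F.image Prod.snd, (o2, B) ∈ Pr := fun B hB => by
    obtain ⟨e, he, rfl⟩ := hex B hB
    exact h.e2 e he
  -- hulls
  obtain ⟨p, u, Hx, Sx⟩ := hull_scaled (F.image Prod.snd) (cf m0 c o1) (fun B => Wd (o1, B))
    (fun s => Zw m0 (I s)) 1 one_ne_zero
    (fun B hB => hC.Zw_conn hV (hC.wdW _ (hp1 B hB)) (hC.wd0 _ (hp1 B hB)))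
    (fun B hB B' hB' hne => hC.Zw_disj hV (hC.wdW _ (hp1 B hB)) (hC.wdW _ (hp1 B' hB')) hne)
    (fun B hB => hC.cf_mem (hp1 B hB))
  obtain ⟨q, v', Hy, Sy⟩ := hull_scaled (F.image Prod.snd) (cf m0 c o2) (fun B => Wd (o2, B))
    (fun s => Zw m0 (I s)) (rho o1.1 o2.1 o3.1) hr3
    (fun B hB => hC.Zw_conn hV (hC.wdW _ (hp2 B hB)) (hC.wd0 _ (hp2 B hB)))
    (fun B hB B' hB' hne => hC.Zw_disj hV (hC.wdW _ (hp2 B hB)) (hC.wdW _ (hp2 B' hB')) hne)
    (fun B hB => hC.cf_mem (hp2 B hB))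
  have Hx' : HullF (F.image Prod.snd) (fX m0 c o1) (fun B => Wd (o1, B)) p u :=
    Hx.congr fun B _ => one_mul _
  have Hy' : HullF (F.image Prod.snd) (fY m0 c o1 o2 o3) (fun B => Wd (o2, B)) q v' :=
    Hy.congr fun B _ => rfl
  obtain ⟨η, hη, -, Sy'⟩ := exists_inflate ((F.image Prod.snd).image fun B => Wd (o2, B)) q v'
    (by
      intro s hs t ht hst
      obtain ⟨B, hB, rfl⟩ := mem_image.1 hs
      obtain ⟨B', hB', rfl⟩ := mem_image.1 ht
      exact Sy B hB B' hB' hst) one_pos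
  have hzz : ∀ a : Pt, ∃ rw : (ℕ → ℝ) × (ℕ → ℝ), a ∈ F.image Prod.fst →
      HullF ({B ∈ F.image Prod.snd | (a, B) ∈ F}) (fZ m0 c o1 o2 o3 a) (fun B => Wd (a, B))
        rw.1 rw.2 ∧
      ∀ B ∈ ({B ∈ F.image Prod.snd | (a, B) ∈ F} : Finset Pt),
        ∀ B' ∈ ({B ∈ F.image Prod.snd | (a, B) ∈ F} : Finset Pt), Wd (a, B) ≠ Wd (a, B') →
        rw.2 (Wd (a, B)) + rw.2 (Wd (a, B')) < |rw.1 (Wd (a, B)) - rw.1 (Wd (a, B'))| := by
    intro a
    by_cases ha : a ∈ F.image Prod.fst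
    · obtain ⟨e, he, rfl⟩ := hexa a ha
      have hal := poles_ne1 h he
      have hpa : ∀ B ∈ ({B ∈ F.image Prod.snd | (e.1, B) ∈ F} : Finset Pt), (e.1, B) ∈ Pr :=
        fun B hB => h.sub (mem_filter.1 hB).2
      obtain ⟨r, w, Hz, Sz⟩ := hull_scaled ({B ∈ F.image Prod.snd | (e.1, B) ∈ F})
        (cf m0 c e.1) (fun B => Wd (e.1, B)) (fun s => Zw m0 (I s)) (fs o1 o2 e.1)
        (fs_ne hal hx12)
        (fun B hB => hC.Zw_conn hV (hC.wdW _ (hpa B hB)) (hC.wd0 _ (hpa B hB)))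
        (fun B hB B' hB' hne =>
          hC.Zw_disj hV (hC.wdW _ (hpa B hB)) (hC.wdW _ (hpa B' hB')) hne)
        (fun B hB => hC.cf_mem (hpa B hB))
      exact ⟨(r, w), fun _ => ⟨Hz.congr fun B _ => (fZ_eq hal).symm, Sz⟩⟩
    · exact ⟨(fun _ => 0, fun _ => 0), fun h1 => absurd h1 ha⟩
  choose g hg using hzz
  refine ⟨p, u, q, fun s => v' s + η, fun a => (g a).1, fun a => (g a).2,
    ⟨Hx', ⟨v', fun s => by linarith, Hy'⟩, fun a ha => (hg a ha).1⟩, ?_⟩
  -- common fields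
  have hKK2 : K ≤ K ^ 2 := by nlinarith
  have hμ : 0 < (#Q : ℝ) / lam ^ 2 := by positivity
  have h12 : ∀ B ∈ F.image Prod.snd, ∃ T : Finset Pt, (∀ z ∈ F.image Prod.snd,
      Wd (o1, z) = Wd (o1, B) → Wd (o2, z) = Wd (o2, B) → z ∈ T) ∧
      lam ^ 2 * (#T : ℝ) ≤ K * #Q := by
    intro B hB
    obtain ⟨e, he, rfl⟩ := hex B hB
    refine ⟨_, fun z hz h1 h2 => ?_, h.p12 e he⟩
    exact mem_filter.2 ⟨hC.mem2 _ (hp1 z hz), hp1 z hz, hp2 z hz, h1, h2⟩
  refine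
  { ne := ⟨e₀.1, mem_image_of_mem _ he₀⟩
    tri := ?_
    sub := fun a _ => filter_subset _ _
    memI := fun B hB => mem_image_of_mem _ hB
    memJ := fun B hB => mem_image_of_mem _ hB
    pij := fun s t => pair_count hl0 hN.le (by linarith) hKK2 h12 s t _
    v1 := ?_
    mass := ?_ }
  · -- triples
    intro a ha
    obtain ⟨Hz, Sz⟩ := hg a ha
    obtain ⟨ea, hea, hea1⟩ := hexa a ha
    have hal1 : 1 / 2 ≤ |fal o1 o2 o3 a| := by
      rw [← hea1]
      exact poles_ne1 h hea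
    have hal2 : |fal o1 o2 o3 a| ≤ 2 := by
      rw [← hea1]
      exact h.cr2 ea hea
    have hpa : ∀ B ∈ ({B ∈ F.image Prod.snd | (a, B) ∈ F} : Finset Pt), (a, B) ∈ F :=
      fun B hB => (mem_filter.1 hB).2
    have hK2 : (2 : ℝ) ≤ K ^ 2 := by linarith
    refine
    { oneK := by linarith
      posL := hl0
      posM := hμ
      u0 := ?_
      v0 := ?_
      w0 := ?_
      sepU := ?_
      sepV := Sy'
      sepW := ?_
      cI := ?_
      cJ := ?_
      cK := ?_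
      memI := fun B hB => mem_image_of_mem _ (mem_filter.1 hB).1
      memJ := fun B hB => mem_image_of_mem _ (mem_filter.1 hB).1
      memK := fun B hB => mem_image_of_mem _ hB
      nx := fun B hB => Hx'.mem B (mem_filter.1 hB).1
      ny := fun B hB => (Hy'.mem B (mem_filter.1 hB).1).trans (by linarith)
      nz := fun B hB => Hz.mem B hB
      qx := fun B _ B' _ => quasi_x hK2 hal2
      qy := fun B _ B' _ => quasi_y hK2 hal1
      qz := fun B _ B' _ => quasi_z hK2 hal2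
      pij := ?_
      pik := ?_
      pjk := ?_ }
    · intro s hs
      obtain ⟨B, hB, rfl⟩ := mem_image.1 hs
      exact Hx'.nonneg hB
    · intro s hs
      obtain ⟨B, hB, rfl⟩ := mem_image.1 hs
      exact add_nonneg (Hy'.nonneg hB) hη.le
    · intro s hs
      obtain ⟨B, hB, rfl⟩ := mem_image.1 hs
      exact Hz.nonneg hB
    · intro s hs t ht hst
      obtain ⟨B, hB, rfl⟩ := mem_image.1 hs
      obtain ⟨B', hB', rfl⟩ := mem_image.1 ht
      exact (Sx B hB B' hB' hst).le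
    · intro s hs t ht hst
      obtain ⟨B, hB, rfl⟩ := mem_image.1 hs
      obtain ⟨B', hB', rfl⟩ := mem_image.1 ht
      exact (Sz B hB B' hB' hst).le
    · refine few_windows hV hKK (hC.mem1 _ (h.e1 e₀ he₀)) fun s hs => ?_
      obtain ⟨B, hB, rfl⟩ := mem_image.1 hs
      exact ⟨hC.wdW _ (hp1 B hB), (hC.jq _ (hp1 B hB)).1⟩
    · refine few_windows hV hKK (hC.mem1 _ (h.e2 e₀ he₀)) fun s hs => ?_
      obtain ⟨B, hB, rfl⟩ := mem_image.1 hs
      exact ⟨hC.wdW _ (hp2 B hB), (hC.jq _ (hp2 B hB)).1⟩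
    · refine few_windows hV hKK (x := a) (by rw [← hea1]; exact hC.mem1 _ (h.sub hea))
        fun s hs => ?_
      obtain ⟨B, hB, rfl⟩ := mem_image.1 hs
      exact ⟨hC.wdW _ (h.sub (hpa B hB)), (hC.jq _ (h.sub (hpa B hB))).1⟩
    · intro s t
      refine pair_count hl0 hN.le (by linarith) hKK2 (fun B hB => ?_) s t _
      obtain ⟨T, hT, hT2⟩ := h12 B (mem_filter.1 hB).1
      exact ⟨T, fun z hz h1 h2 => hT z (mem_filter.1 hz).1 h1 h2, hT2⟩
    · intro s t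
      refine pair_count hl0 hN.le (by linarith) hKK2 (fun B hB => ?_) s t _
      refine ⟨_, fun z hz h1 h2 => ?_, h.p1a (a, B) (hpa B hB)⟩
      exact mem_filter.2 ⟨hC.mem2 _ (h.sub (hpa z hz)), h.e1 _ (hpa z hz),
        h.sub (hpa z hz), h1, h2⟩
    · intro s t
      refine pair_count hl0 hN.le (by linarith) hKK2 (fun B hB => ?_) s t _
      refine ⟨_, fun z hz h1 h2 => ?_, h.p2a (a, B) (hpa B hB)⟩
      exact mem_filter.2 ⟨hC.mem2 _ (h.sub (hpa z hz)), h.e2 _ (hpa z hz),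
        h.sub (hpa z hz), h1, h2⟩
  · -- positive widths
    intro s hs
    obtain ⟨B, hB, rfl⟩ := mem_image.1 hs
    exact add_pos_of_nonneg_of_pos (Hy'.nonneg hB) hη
  · -- mass
    have e1 : lam ^ 2 * ((#Q : ℝ) / lam ^ 2) = #Q := by field_simp
    rw [e1]
    have e2 : ∑ a ∈ F.image Prod.fst, (#{B ∈ F.image Prod.snd | (a, B) ∈ F} : ℝ) = #F := by
      have h1 := card_eq_sum_card_fiberwise (f := Prod.fst) (s := F) (t := F.image Prod.fst)
        (fun e he => mem_image_of_mem _ he)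
      rw [h1]
      push_cast
      refine sum_congr rfl fun a _ => ?_
      have : #{B ∈ F.image Prod.snd | (a, B) ∈ F} = #{e ∈ F | e.1 = a} := by
        refine card_bij' (fun B _ => (a, B)) (fun e _ => e.2) ?_ ?_ ?_ ?_
        · intro B hB
          exact mem_filter.2 ⟨(mem_filter.1 hB).2, rfl⟩
        · intro e he
          obtain ⟨g1, rfl⟩ := mem_filter.1 he
          exact mem_filter.2 ⟨mem_image_of_mem _ g1, g1⟩
        · intro B _
          rfl
        · intro e he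
          obtain ⟨_, rfl⟩ := mem_filter.1 he
          rfl
      exact_mod_cast this
    rw [e2]
    have h1 : (#(F.image Prod.fst) : ℝ) ≤ #(Pr.image Prod.fst) := by
      exact_mod_cast card_le_card (image_subset_image h.sub)
    have h2 := h.cA
    have h3 := h.card
    have h4 : lam * ((#Q : ℝ) * #(F.image Prod.fst)) ≤ lam * (K ^ 2 * #F) := by
      calc lam * ((#Q : ℝ) * #(F.image Prod.fst)) ≤ lam * ((#Q : ℝ) * #(Pr.image Prod.fst)) := by
            gcongr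
        _ = #Q * (lam * #(Pr.image Prod.fst)) := by ring
        _ ≤ #Q * (K * #Q) := by gcongr
        _ = K * (#Q : ℝ) ^ 2 := by ring
        _ ≤ K * (K * lam * #F) := by gcongr
        _ = lam * (K ^ 2 * #F) := by ring
    exact le_of_mul_le_mul_left h4 hl0

end

end Vale.Agent.P065.UB.H433
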