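import Vale.Agent.P065.UB.H616.Chart

/-!
# P065, upper bound: the apex error (helper433)

Chart of helper616: `o` = centre, `m0` = slope of `l0`.  A further apex `a` is seen from `o` in the
window `W0` whose slopes differ by at most `h`: `|chV m0 o a| ≤ h * |chU o a|`.  A point `q` is seen
from `a` with relative slope `ma = sl a q - m0` and from `o` with relative slope `mo = sl o q - m0`.
If `|ma| ≤ 2 |mo|` and `32 * h < |ma|` then the strip `x - U(a) y` of the class `a` is exact up to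
`4 * h * ζ ^ 2`, `ζ = 1 / ma`, and this is at most `32` times the width of the window of the class
in the chart as soon as the window has length at least `h / 2` (`apex_err`).  The exact function
`ζ` is quasi-linear in the chart (`apex_lip`, `apex_lip_x`, `apex_lip_y`).
-/

set_option autoImplicit false

namespace Vale.Agent.P065.UB.H433

open Finset Vale.Agent.P065.UB Vale.Agent.P065.UB.H616

/-- `a` is a usable apex for `q` in the chart of `(o, m0)` with resolution `h` -/
structure Apx (h m0 : ℝ) (o a q : Pt) : Prop where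
  h0 : 0 ≤ h
  va : |chV m0 o a| ≤ h * |chU o a|
  ne : a.1 ≠ q.1
  no : o.1 ≠ q.1
  big : 32 * h < |sl a q - m0|
  le : |sl a q - m0| ≤ 2 * |sl o q - m0|

namespace Apx

variable {h m0 : ℝ} {o a q : Pt}

theorem ma_pos (H : Apx h m0 o a q) : 0 < |sl a q - m0| := by
  have := H.h0
  linarith [H.big]

theorem ma_ne (H : Apx h m0 o a q) : sl a q - m0 ≠ 0 := abs_pos.1 H.ma_pos

theorem sl_ne (H : Apx h m0 o a q) : sl a q ≠ m0 := fun h => H.ma_ne (sub_eq_zero.2 h)

/-- `V(q) = mo U(q)` -/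
theorem V_eq (H : Apx h m0 o a q) : chV m0 o q = (sl o q - m0) * chU o q := by
  have := chV_eq m0 o H.no
  rw [chV_self, sub_zero] at this
  exact this

theorem V_ne (H : Apx h m0 o a q) : chV m0 o q ≠ 0 := by
  rw [H.V_eq]
  apply mul_ne_zero
  · intro h0
    have h1 := H.le
    rw [h0, abs_zero, mul_zero] at h1
    exact absurd H.ma_pos (not_lt.2 h1)
  · unfold chU
    exact sub_ne_zero.2 (Ne.symm H.no)

theorem V_pos (H : Apx h m0 o a q) : 0 < |chV m0 o q| := abs_pos.2 H.V_ne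

/-- the basic estimate -/
theorem maU (H : Apx h m0 o a q) : 31 * (|sl a q - m0| * |chU o a|) ≤ 96 * |chV m0 o q| := by
  have e1 : chV m0 o q - chV m0 o a = (sl a q - m0) * (q.1 - a.1) := chV_eq m0 o H.ne
  have e2 : q.1 - a.1 = chU o q - chU o a := by unfold chU; ring
  rw [e2] at e1
  have e3 : (sl a q - m0) * chU o a
      = (sl a q - m0) * chU o q - chV m0 o q + chV m0 o a := by linarith
  have e4 : |(sl a q - m0) * chU o q| ≤ 2 * |chV m0 o q| := by
    rw [H.V_eq, abs_mul, abs_mul, ← mul_assoc]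
    exact mul_le_mul_of_nonneg_right H.le (abs_nonneg _)
  have e5 : |(sl a q - m0) * chU o a|
      ≤ |(sl a q - m0) * chU o q| + |chV m0 o q| + |chV m0 o a| := by
    rw [e3]
    refine (abs_add_le _ _).trans ?_
    gcongr
    exact abs_sub _ _
  rw [abs_mul] at e5
  have e6 : h * |chU o a| * 32 ≤ |sl a q - m0| * |chU o a| := by
    have := mul_le_mul_of_nonneg_right H.big.le (abs_nonneg (chU o a))
    linarith
  have := H.va
  linarith

theorem Va (H : Apx h m0 o a q) : 31 * |chV m0 o a| ≤ 3 * |chV m0 o q| := by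
  have h1 := H.maU
  have h2 := H.va
  have h3 : h * |chU o a| * 32 ≤ |sl a q - m0| * |chU o a| := by
    have := mul_le_mul_of_nonneg_right H.big.le (abs_nonneg (chU o a))
    linarith
  linarith

/-- `|V(a) y(q)| ≤ 3 / 31` -/
theorem VaY (H : Apx h m0 o a q) : |chV m0 o a * chY m0 o q| ≤ 3 / 31 := by
  unfold chY
  rw [abs_mul, abs_div, abs_one, mul_one_div, div_le_iff₀ H.V_pos]
  linarith [H.Va]

/-- `|V(a) y(q)| ≤ 4 h |ζ|` -/
theorem VaY' (H : Apx h m0 o a q) :
    |chV m0 o a * chY m0 o q| ≤ 4 * h * |zt m0 (sl a q)| := by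
  unfold chY zt
  rw [abs_mul, abs_div, abs_one, abs_div, abs_one, mul_one_div, mul_one_div,
    div_le_div_iff₀ H.V_pos H.ma_pos]
  have h1 := H.maU
  have h2 := mul_le_mul_of_nonneg_right H.va H.ma_pos.le
  have h3 := mul_le_mul_of_nonneg_left h1 H.h0
  nlinarith [H.V_pos, H.h0]

/-- `h |ζ| ≤ 1 / 32` -/
theorem hz (H : Apx h m0 o a q) : h * |zt m0 (sl a q)| ≤ 1 / 32 := by
  unfold zt
  rw [abs_div, abs_one, mul_one_div, div_le_iff₀ H.ma_pos]
  linarith [H.big]

/-- the exact relation -/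
theorem exact (H : Apx h m0 o a q) :
    chX m0 o q - chU o a * chY m0 o q
      = zt m0 (sl a q) * (1 - chV m0 o a * chY m0 o q) :=
  zt_sl m0 o H.ne H.V_ne H.sl_ne

/-- **the error of the linearised strip** -/
theorem err (H : Apx h m0 o a q) :
    |chX m0 o q - chU o a * chY m0 o q - zt m0 (sl a q)| ≤ 4 * h * zt m0 (sl a q) ^ 2 := by
  have e : chX m0 o q - chU o a * chY m0 o q - zt m0 (sl a q)
      = - (zt m0 (sl a q) * (chV m0 o a * chY m0 o q)) := by
    rw [H.exact]; ring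
  rw [e, abs_neg, abs_mul, ← sq_abs (zt m0 (sl a q))]
  have := mul_le_mul_of_nonneg_left H.VaY' (abs_nonneg (zt m0 (sl a q)))
  nlinarith

/-- change of the direction `m0` inside the window `W0` -/
theorem of {m1 : ℝ} (h0 : 0 ≤ h) (va : |chV m0 o a| ≤ h * |chU o a|) (ne : a.1 ≠ q.1)
    (no : o.1 ≠ q.1) (hm : |m1 - m0| ≤ h) (big : 64 * h < |sl a q - m1|)
    (le : |sl a q - m1| ≤ |sl o q - m1|) : Apx h m0 o a q := by
  have e1 : |sl a q - m1| ≤ |sl a q - m0| + |m1 - m0| := by
    have : sl a q - m1 = (sl a q - m0) - (m1 - m0) := by ring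
    rw [this]; exact abs_sub _ _
  have e2 : |sl a q - m0| ≤ |sl a q - m1| + |m1 - m0| := by
    have : sl a q - m0 = (sl a q - m1) + (m1 - m0) := by ring
    rw [this]; exact abs_add_le _ _
  have e3 : |sl o q - m1| ≤ |sl o q - m0| + |m1 - m0| := by
    have : sl o q - m1 = (sl o q - m0) - (m1 - m0) := by ring
    rw [this]; exact abs_sub _ _
  exact ⟨h0, va, ne, no, by linarith, by linarith⟩

/-- an apex seen from `o` in the window `W0` -/
theorem va_of {s : ℝ} (hne : o.1 ≠ a.1) (hs : sl o a = s) (hm : |s - m0| ≤ h) :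
    |chV m0 o a| ≤ h * |chU o a| := by
  have e := chV_eq m0 o hne
  rw [chV_self, sub_zero, hs] at e
  rw [e, abs_mul]
  exact mul_le_mul_of_nonneg_right hm (abs_nonneg _)

end Apx

/-! ### the width of the window in the chart -/

/-- two slopes of a window on one side of `m0`, `t` in between: the chart width is at least
`(m' - m) / 4 * ζ ^ 2`, or at least `|ζ| / 2` -/
theorem width_aux {s t r : ℝ} (hs : 0 < s) (hst : s ≤ t) (htr : t ≤ r) {h : ℝ}
    (hh : h ≤ 2 * (r - s)) (h16 : 16 * h ≤ t) (h0 : 0 ≤ h) :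
    h * (1 / t) ^ 2 ≤ 8 * (1 / s - 1 / r) := by
  have ht : 0 < t := lt_of_lt_of_le hs hst
  have hr : 0 < r := lt_of_lt_of_le ht htr
  have e1 : 1 / s - 1 / r = (r - s) / (s * r) := by field_simp
  rw [e1]
  have e2 : h * (1 / t) ^ 2 = h / t ^ 2 := by rw [div_pow, one_pow]; ring
  rw [e2, ← mul_div_assoc, div_le_div_iff₀ (by positivity) (by positivity)]
  by_cases hc : r ≤ 4 * t
  · -- `s * r ≤ 4 t ^ 2`, `h ≤ 2 (r - s)`
    have h1 : s * r ≤ 4 * t ^ 2 := by nlinarith
    have h2 : h * (s * r) ≤ h * (4 * t ^ 2) := mul_le_mul_of_nonneg_left h1 h0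
    nlinarith [sq_nonneg t, mul_pos ht ht]
  · push Not at hc
    -- `r - s ≥ 3 r / 4`, `h ≤ t / 16`
    have h1 : 3 * r ≤ 4 * (r - s) := by nlinarith
    have h2 : h * (s * r) ≤ (t / 16) * (t * r) := by
      have : s * r ≤ t * r := mul_le_mul_of_nonneg_right hst hr.le
      calc h * (s * r) ≤ h * (t * r) := mul_le_mul_of_nonneg_left this h0
        _ ≤ (t / 16) * (t * r) := by
          apply mul_le_mul_of_nonneg_right _ (by positivity)
          linarith
    nlinarith [mul_pos ht ht, mul_pos (mul_pos ht ht) hr]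

/-- **width**: a window which contains `t` and two slopes at distance at least `h / 2`, and which
does not contain `m0`, contains `ζ(t)` in a chart interval of length at least `h ζ ^ 2 / 8`. -/
theorem width {m0 h : ℝ} {I : Set ℝ} (hI : I.OrdConnected) (hm0 : m0 ∉ I) (h0 : 0 ≤ h)
    {t : ℝ} (ht : t ∈ I) (h16 : 16 * h ≤ |t - m0|) {m m' : ℝ} (hm : m ∈ I) (hm' : m' ∈ I)
    (hmm : h ≤ 2 * (m' - m)) :
    ∃ z ∈ Zw m0 I, ∃ z' ∈ Zw m0 I, z ≤ zt m0 t ∧ zt m0 t ≤ z' ∧
      h * zt m0 t ^ 2 ≤ 8 * (z' - z) := by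
  -- replace the two slopes by slopes around `t`
  obtain ⟨s, hs, r, hr, hst, htr, hsr⟩ : ∃ s ∈ I, ∃ r ∈ I, s ≤ t ∧ t ≤ r ∧ h ≤ 2 * (r - s) := by
    refine ⟨min m t, ?_, max m' t, ?_, min_le_right _ _, le_max_right _ _, ?_⟩
    · rcases min_choice m t with e | e <;> rw [e] <;> assumption
    · rcases max_choice m' t with e | e <;> rw [e] <;> assumption
    · have := min_le_left m t
      have := le_max_left m' t
      linarith
  rcases side_of_not_mem hI hm0 with hside | hside
  · have h1 : 0 < s - m0 := by linarith [hside s hs]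
    have h2 : 0 < t - m0 := by linarith [hside t ht]
    have h3 : 0 < r - m0 := by linarith [hside r hr]
    refine ⟨zt m0 r, mem_Zw m0 hr, zt m0 s, mem_Zw m0 hs, ?_, ?_, ?_⟩
    · exact one_div_le_one_div_of_le h2 (by linarith)
    · exact one_div_le_one_div_of_le h1 (by linarith)
    · have := width_aux (s := s - m0) (t := t - m0) (r := r - m0) h1 (by linarith) (by linarith)
        (h := h) (by linarith) (by rwa [abs_of_pos h2] at h16) h0
      exact this
  · have h1 : 0 < m0 - s := by linarith [hside s hs]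
    have h2 : 0 < m0 - t := by linarith [hside t ht]
    have h3 : 0 < m0 - r := by linarith [hside r hr]
    have e : ∀ y : ℝ, zt m0 y = - (1 / (m0 - y)) := by
      intro y
      unfold zt
      rw [← neg_sub m0 y, one_div, one_div, inv_neg]
    refine ⟨zt m0 r, mem_Zw m0 hr, zt m0 s, mem_Zw m0 hs, ?_, ?_, ?_⟩
    · rw [e, e]
      have := one_div_le_one_div_of_le h3 (by linarith : m0 - r ≤ m0 - t)
      linarith
    · rw [e, e]
      have := one_div_le_one_div_of_le h2 (by linarith : m0 - t ≤ m0 - s)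
      linarith
    · have := width_aux (s := m0 - r) (t := m0 - t) (r := m0 - s) h3 (by linarith) (by linarith)
        (h := h) (by linarith) (by
          have e2 : |t - m0| = m0 - t := by rw [abs_sub_comm]; exact abs_of_pos h2
          rwa [e2] at h16) h0
      rw [e t, e s, e r]
      have e3 : (-(1 / (m0 - t))) ^ 2 = (1 / (m0 - t)) ^ 2 := by ring
      rw [e3]
      linarith

/-- **the apex error is at most `32` times the chart width of the window** -/
theorem apex_err {h m0 : ℝ} {o a q : Pt} (H : Apx h m0 o a q) {I : Set ℝ} (hI : I.OrdConnected)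
    (hm0 : m0 ∉ I) (ht : sl a q ∈ I) {m m' : ℝ} (hm : m ∈ I) (hm' : m' ∈ I)
    (hmm : h ≤ 2 * (m' - m)) :
    ∃ z ∈ Zw m0 I, ∃ z' ∈ Zw m0 I, z ≤ zt m0 (sl a q) ∧ zt m0 (sl a q) ≤ z' ∧
      |chX m0 o q - chU o a * chY m0 o q - zt m0 (sl a q)| ≤ 32 * (z' - z) := by
  obtain ⟨z, hz, z', hz', h1, h2, h3⟩ := width hI hm0 H.h0 ht
    (by linarith [H.big, H.h0]) hm hm' hmm
  refine ⟨z, hz, z', hz', h1, h2, H.err.trans ?_⟩
  nlinarith

/-! ### quasi-linearity of the exact functions -/

section lip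

variable {h m0 : ℝ} {o a p q : Pt}

/-- the exact difference relation -/
theorem apex_diff (Hp : Apx h m0 o a p) (Hq : Apx h m0 o a q) :
    (zt m0 (sl a q) - zt m0 (sl a p)) * (1 - chV m0 o a * chY m0 o q)
      = (chX m0 o q - chX m0 o p)
        - (chU o a - chV m0 o a * zt m0 (sl a p)) * (chY m0 o q - chY m0 o p) := by
  have h1 := Hp.exact
  have h2 := Hq.exact
  linear_combination h1 - h2

theorem apex_coef1 (Hq : Apx h m0 o a q) :
    28 / 31 ≤ 1 - chV m0 o a * chY m0 o q ∧ 1 - chV m0 o a * chY m0 o q ≤ 34 / 31 := by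
  have := abs_le.1 Hq.VaY
  constructor <;> linarith [this.1, this.2]

theorem apex_coef2 (Hp : Apx h m0 o a p) :
    |chV m0 o a * zt m0 (sl a p)| ≤ |chU o a| / 32 := by
  rw [abs_mul]
  have h1 := mul_le_mul_of_nonneg_right Hp.va (abs_nonneg (zt m0 (sl a p)))
  have h2 := mul_le_mul_of_nonneg_right Hp.hz (abs_nonneg (chU o a))
  linarith

/-- `|Δζ| ≤ 2 (|Δx| + |U(a) Δy|)` -/
theorem apex_lip (Hp : Apx h m0 o a p) (Hq : Apx h m0 o a q) :
    |zt m0 (sl a q) - zt m0 (sl a p)|
      ≤ 2 * (|chX m0 o q - chX m0 o p| + |chU o a| * |chY m0 o q - chY m0 o p|) := by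
  have e := apex_diff Hp Hq
  have c1 := apex_coef1 Hq
  have c2 := apex_coef2 Hp
  have e1 : |zt m0 (sl a q) - zt m0 (sl a p)| * (1 - chV m0 o a * chY m0 o q)
      ≤ |chX m0 o q - chX m0 o p|
        + |chU o a - chV m0 o a * zt m0 (sl a p)| * |chY m0 o q - chY m0 o p| := by
    rw [← abs_of_pos (by linarith [c1.1] : 0 < 1 - chV m0 o a * chY m0 o q), ← abs_mul, e,
      ← abs_mul]
    exact abs_sub _ _
  have e2 : |chU o a - chV m0 o a * zt m0 (sl a p)| ≤ 33 / 32 * |chU o a| := by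
    refine (abs_sub _ _).trans ?_
    linarith
  have e3 := mul_le_mul_of_nonneg_right e2 (abs_nonneg (chY m0 o q - chY m0 o p))
  have e4 := mul_le_mul_of_nonneg_left c1.1 (abs_nonneg (zt m0 (sl a q) - zt m0 (sl a p)))
  have e5 := mul_nonneg (abs_nonneg (chU o a)) (abs_nonneg (chY m0 o q - chY m0 o p))
  have e6 := abs_nonneg (chX m0 o q - chX m0 o p)
  linarith

/-- `|Δx| ≤ 2 (|Δζ| + |U(a) Δy|)` -/
theorem apex_lip_x (Hp : Apx h m0 o a p) (Hq : Apx h m0 o a q) :
    |chX m0 o q - chX m0 o p|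
      ≤ 2 * (|zt m0 (sl a q) - zt m0 (sl a p)| + |chU o a| * |chY m0 o q - chY m0 o p|) := by
  have e := apex_diff Hp Hq
  have c1 := apex_coef1 Hq
  have c2 := apex_coef2 Hp
  have e0 : chX m0 o q - chX m0 o p
      = (zt m0 (sl a q) - zt m0 (sl a p)) * (1 - chV m0 o a * chY m0 o q)
        + (chU o a - chV m0 o a * zt m0 (sl a p)) * (chY m0 o q - chY m0 o p) := by linarith
  have e1 : |chX m0 o q - chX m0 o p|
      ≤ |zt m0 (sl a q) - zt m0 (sl a p)| * (1 - chV m0 o a * chY m0 o q)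
        + |chU o a - chV m0 o a * zt m0 (sl a p)| * |chY m0 o q - chY m0 o p| := by
    rw [e0]
    refine (abs_add_le _ _).trans (le_of_eq ?_)
    rw [abs_mul, abs_mul, abs_of_pos (by linarith [c1.1] : 0 < 1 - chV m0 o a * chY m0 o q)]
  have e2 : |chU o a - chV m0 o a * zt m0 (sl a p)| ≤ 33 / 32 * |chU o a| := by
    refine (abs_sub _ _).trans ?_
    linarith
  have e3 := mul_le_mul_of_nonneg_right e2 (abs_nonneg (chY m0 o q - chY m0 o p))
  have e4 := mul_le_mul_of_nonneg_left c1.2 (abs_nonneg (zt m0 (sl a q) - zt m0 (sl a p)))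
  have e5 := mul_nonneg (abs_nonneg (chU o a)) (abs_nonneg (chY m0 o q - chY m0 o p))
  have e6 := abs_nonneg (zt m0 (sl a q) - zt m0 (sl a p))
  linarith

/-- `|U(a) Δy| ≤ 2 (|Δx| + |Δζ|)` -/
theorem apex_lip_y (Hp : Apx h m0 o a p) (Hq : Apx h m0 o a q) :
    |chU o a| * |chY m0 o q - chY m0 o p|
      ≤ 2 * (|chX m0 o q - chX m0 o p| + |zt m0 (sl a q) - zt m0 (sl a p)|) := by
  have e := apex_diff Hp Hq
  have c1 := apex_coef1 Hq
  have c2 := apex_coef2 Hp
  have e0 : (chU o a - chV m0 o a * zt m0 (sl a p)) * (chY m0 o q - chY m0 o p)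
      = (chX m0 o q - chX m0 o p)
        - (zt m0 (sl a q) - zt m0 (sl a p)) * (1 - chV m0 o a * chY m0 o q) := by linarith
  have e1 : |chU o a - chV m0 o a * zt m0 (sl a p)| * |chY m0 o q - chY m0 o p|
      ≤ |chX m0 o q - chX m0 o p|
        + |zt m0 (sl a q) - zt m0 (sl a p)| * (1 - chV m0 o a * chY m0 o q) := by
    rw [← abs_mul, e0]
    refine (abs_sub _ _).trans (le_of_eq ?_)
    rw [abs_mul, abs_of_pos (by linarith [c1.1] : 0 < 1 - chV m0 o a * chY m0 o q)]
  have e2 : 31 / 32 * |chU o a| ≤ |chU o a - chV m0 o a * zt m0 (sl a p)| := by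
    have := abs_sub_abs_le_abs_sub (chU o a) (chV m0 o a * zt m0 (sl a p))
    linarith
  have e3 := mul_le_mul_of_nonneg_right e2 (abs_nonneg (chY m0 o q - chY m0 o p))
  have e4 := mul_le_mul_of_nonneg_left c1.2 (abs_nonneg (zt m0 (sl a q) - zt m0 (sl a p)))
  have e5 := mul_nonneg (abs_nonneg (chU o a)) (abs_nonneg (chY m0 o q - chY m0 o p))
  have e6 := abs_nonneg (chX m0 o q - chX m0 o p)
  have e7 := abs_nonneg (zt m0 (sl a q) - zt m0 (sl a p))
  nlinarith

end lip

end Vale.Agent.P065.UB.H433
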