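import Vale.Agent.P065.UB.H433.Mach2
import Vale.Agent.P065.UB.H334.ToMach
import Vale.Agent.P065.H989.PolesT

/-!
# P065, upper bound (helper433): `StSysM` and the machine
-/

set_option autoImplicit false

namespace Vale.Agent.P065.UB.H433

open Finset Vale.Agent.P065.UB Vale.Agent.P065.UB.RankAux Vale.Agent.P065.H183
open Vale.Agent.P065.UB.H415 Vale.Agent.P065.UB.H616 Vale.Agent.P065.H240 Vale.Agent.P065.H989

/-- **MACH2a** -/
theorem stSysM : H334.StSysM := by
  refine ⟨2, ?_⟩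
  intro K0 K lam Q W I R c w0 m0 Pr Wd o1 o2 o3 F hV hKK hP _ _
  obtain ⟨p, u, q, v, r, w, S⟩ := sysM hP hV hKK
  exact ⟨_, p, u, _, q, v, _, r, w, S⟩

/-- **[MACHINE]** -/
theorem stMachine : MC.StMachine := H334.machine_of stPoles stSysM

end Vale.Agent.P065.UB.H433
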